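import Vale.Agent.P235.H206.Final

namespace Vale.Agent.Results.P235.EdgeSumsAndApices

open Vale.Agent.P235

/-- Bounds for `c₁(G)` (`DistortionLE G C` is `c₁(G) ≤ C`), `G` finite and connected.
1. Treewidth at most `3`: an absolute constant.
2. If `c₁ ≤ K` for all components of `G - X`, then `c₁(G) ≤ C (K + log (|X| + 1))`, `C` absolute.
3. If deleting `t` vertices leaves treewidth at most `3`, then `c₁(G) ≤ C log (t + 2)`.
4. If the connected graphs of a class `P` embed nonexpansively, isometrically on any one prescribed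
edge and with distortion at most `D`, then so do, with `12000 D`, all connected graphs obtained from
`P` by any number of gluings along edges and deletions of edges.
5. This holds for `P` = graphs of treewidth at most `3` and graphs of pathwidth at most `w`.
6. The class of 5. as round `0` of `BuiltOver`.
7. Composition along a set `X` with a torso. 8. Path decompositions with bags of any size.
9. Removal of a shortest path. 10. Characterization of `c₁` of every path metric by the
oscillations of real functions. -/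
theorem result :
    (∃ C : ℝ, ∀ (V : Type) [Finite V] (G : SimpleGraph V), G.Connected →
      TreewidthLE G 3 → DistortionLE G C) ∧
    (∃ C : ℝ, ∀ K : ℝ, 0 ≤ K → ∀ (V : Type) [Finite V] (G : SimpleGraph V), G.Connected →
      ∀ X : Set V, X.Nonempty → (∀ u ∉ X, DistortionLE (G.induce (compSet G X u)) K) →
      DistortionLE G (C * (K + Real.log (X.ncard + 1)))) ∧
    (∃ C : ℝ, ∀ (t : ℕ) (V : Type) [Finite V] (G : SimpleGraph V), G.Connected →
      (∃ S : Finset V, S.card ≤ t ∧ TreewidthLE (G.induce {v | v ∉ S}) 3) →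
      DistortionLE G (C * Real.log (t + 2))) ∧
    (∀ (P : ∀ (V : Type), SimpleGraph V → Prop) (D : ℝ), 1 ≤ D →
      (∀ (V : Type) [Finite V] (G : SimpleGraph V), G.Connected → P V G → EdgeIso G D) →
      ∀ (V : Type) [Finite V] (G : SimpleGraph V), G.Connected → EdgeSumOf P G →
        EdgeIso G (12000 * D) ∧ DistortionLE G (12000 * D)) ∧
    (∀ w : ℕ, ∃ D : ℝ, ∀ (V : Type) [Finite V] (G : SimpleGraph V), G.Connected →
      EdgeSumOf (Piece w) G → EdgeIso G D ∧ DistortionLE G D) ∧
    (∀ w j : ℕ, ∃ C : ℝ, ∀ (V : Type) [Finite V] (G : SimpleGraph V), G.Connected →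
      BuiltOver (fun _ G => EdgeSumOf (Piece w) G) w j G → DistortionLE G C) ∧
    (∀ (w : ℕ) (C : ℝ), 1 ≤ C → ∀ (V : Type) [Finite V] (G : SimpleGraph V), G.Connected →
      ∀ X : Set V, X.Nonempty → (∀ u ∉ X, (attach G X u).ncard ≤ w) →
      DistortionLE (torso G X) C → (∀ u ∉ X, DistortionLE (G.induce (compSet G X u)) C) →
      DistortionLE G ((24 * w + 9) * C + (1 + 3 * C) * (96 * C + 112))) ∧
    (∀ (w : ℕ) (C : ℝ), 1 ≤ C → ∀ (V : Type) [Finite V] (G : SimpleGraph V), G.Connected →
      ∀ (n : ℕ) (B : Fin n → Set V), PathDec G w B →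
      (∀ i, ∀ u ∈ B i, DistortionLE (G.induce (compSet G (B i)ᶜ u)) C) →
      DistortionLE G (417 ^ w * C)) ∧
    (∀ C : ℝ, 0 < C → ∀ (V : Type) [Finite V] (G : SimpleGraph V), G.Connected →
      (∀ ℓ : Sym2 V → ℝ, (∀ e ∈ G.edgeSet, 0 < ℓ e) → ∃ (x y : V) (q : G.Walk x y),
        (q.edges.map ℓ).sum = pathDist G ℓ x y ∧
        ∀ u ∉ q.support, DistortionLE (G.induce (compSet G {v | v ∈ q.support} u)) C) →
      DistortionLE G (192 * C + 225)) ∧
    (∀ (V : Type) [Finite V] (G : SimpleGraph V), G.Connected →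
      ∀ ℓ : Sym2 V → ℝ, (∀ e ∈ G.edgeSet, 0 < ℓ e) → ∀ C : ℝ,
        (EmbedsL1 (pathDist G ℓ) C → OscEmb G ℓ C) ∧
        (OscEmb G ℓ C → EmbedsL1 (pathDist G ℓ) (24 * C))) :=
  ⟨treewidth_three', H873.apex_log, deletion_log,
    fun P _ hD hP V _ G hG hE => edgeSum_edgeIso P hD hP V G hG hE, edgeSum_piece_iso,
    builtOver_edgeSum,
    fun w _ hC V _ G hG X hX hw ht hk => composition_explicit w hC V G hG X hX hw ht hk,
    fun w _ hC V _ G hG n B hB h => pathSums_explicit w hC V G hG n B hB h,
    fun _ hC V _ G hG h => geodesic_explicit hC V G hG h, osc_criterion⟩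

end Vale.Agent.Results.P235.EdgeSumsAndApices
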