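import Vale.Agent.P235.C895.Final

namespace Vale.Agent.Results.P235.LightFunctions

open Vale.Agent.P235

/-- Bounded `L₁` distortion: treewidth three, composition theorems, and the universal
characterization of `c₁` by random light functions.
1. Treewidth at most `3`.
2. Deleting `t` vertices to reach treewidth at most `3`.
3. The classes `Built w j`.
4. Composition along a vertex set `X` with at most `w` attachments per component.
5. Path decompositions with bags of any size and adhesion at most `w`.
6. Removing shortest paths.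
7. For every finite graph and every real function `u` on its vertices there is an `L₁` semimetric
which equals `|u a - u b|` on edges and is at least `1/12` of the least oscillation of `u` along a
walk, for all pairs.
8. For all finite connected graphs, positive lengths and `D > 0`: random light functions with
constant `D` give distortion at most `12 D`, and distortion at most `D` gives random light
functions with constant `D`.
9. Hence for every class of finite connected graphs `c₁` is bounded iff random light functions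
exist with one constant, for all lengths. -/
theorem result :
    (∃ C : ℝ, ∀ (V : Type) [Finite V] (G : SimpleGraph V), G.Connected →
      TreewidthLE G 3 → DistortionLE G C) ∧
    (∀ t : ℕ, ∃ C : ℝ, ∀ (V : Type) [Finite V] (G : SimpleGraph V), G.Connected →
      (∃ S : Finset V, S.card ≤ t ∧ TreewidthLE (G.induce {v | v ∉ S}) 3) → DistortionLE G C) ∧
    (∀ w j : ℕ, ∃ C : ℝ, ∀ (V : Type) [Finite V] (G : SimpleGraph V), G.Connected →
      Built w j G → DistortionLE G C) ∧
    (∀ (w : ℕ) (C : ℝ), ∃ K : ℝ, ∀ (V : Type) [Finite V] (G : SimpleGraph V), G.Connected →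
      ∀ X : Set V, X.Nonempty → (∀ u ∉ X, (attach G X u).ncard ≤ w) →
      DistortionLE (torso G X) C → (∀ u ∉ X, DistortionLE (G.induce (compSet G X u)) C) →
      DistortionLE G K) ∧
    (∀ (w : ℕ) (C : ℝ), ∃ K : ℝ, ∀ (V : Type) [Finite V] (G : SimpleGraph V), G.Connected →
      ∀ (n : ℕ) (B : Fin n → Set V), PathDec G w B →
      (∀ i, ∀ u ∈ B i, DistortionLE (G.induce (compSet G (B i)ᶜ u)) C) → DistortionLE G K) ∧
    (∀ C : ℝ, ∃ K : ℝ, ∀ (V : Type) [Finite V] (G : SimpleGraph V), G.Connected →
      (∀ ℓ : Sym2 V → ℝ, (∀ e ∈ G.edgeSet, 0 < ℓ e) → ∃ (x y : V) (q : G.Walk x y),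
        (q.edges.map ℓ).sum = pathDist G ℓ x y ∧
        ∀ u ∉ q.support, DistortionLE (G.induce (compSet G {v | v ∈ q.support} u)) C) →
      DistortionLE G K) ∧
    (∀ (V : Type) [Finite V] (G : SimpleGraph V) (u : V → ℝ), ∃ F : V → V → ℝ, EmbedsL1 F 1 ∧
      (∀ a b, G.Adj a b → F a b = |u a - u b|) ∧
      ∀ x y, G.Reachable x y → minOsc G u x y ≤ 12 * F x y) ∧
    (∀ (V : Type) [Finite V] (G : SimpleGraph V), G.Connected →
      ∀ ℓ : Sym2 V → ℝ, (∀ e ∈ G.edgeSet, 0 < ℓ e) → ∀ D : ℝ, 0 < D →
      (LightRandom G ℓ D → EmbedsL1 (pathDist G ℓ) (12 * D)) ∧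
      (EmbedsL1 (pathDist G ℓ) D → LightRandom G ℓ D)) ∧
    (∀ P : ∀ V : Type, SimpleGraph V → Prop,
      (∃ C : ℝ, 0 < C ∧ ∀ (V : Type) [Finite V] (G : SimpleGraph V), G.Connected → P V G →
        DistortionLE G C) ↔
      (∃ D : ℝ, 0 < D ∧ ∀ (V : Type) [Finite V] (G : SimpleGraph V), G.Connected → P V G →
        ∀ ℓ : Sym2 V → ℝ, (∀ e ∈ G.edgeSet, 0 < ℓ e) → LightRandom G ℓ D)) := by
  refine ⟨treewidth_three', deletion_treewidth, built_bounded, composition, pathSums, geodesics,
    ?_, ?_, ?_⟩
  · intro V _ G u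
    obtain ⟨F, hF, h1, h2⟩ := CK.light G u
    exact ⟨F, hF.embeds (C := 1) (fun _ _ => le_rfl) (fun _ _ => by rw [one_mul]), h1, h2⟩
  · intro V _ G hc ℓ hℓ D hD
    exact ⟨embeds_of_light hc hℓ hD, light_of_embeds hc hℓ hD⟩
  · intro P
    constructor
    · rintro ⟨C, hC, h⟩
      exact ⟨C, hC, fun V _ G hc hP ℓ hℓ => light_of_embeds hc hℓ hC (h V G hc hP ℓ hℓ)⟩
    · rintro ⟨D, hD, h⟩
      exact ⟨12 * D, by positivity, fun V _ G hc hP ℓ hℓ =>
        embeds_of_light hc hℓ hD (h V G hc hP ℓ hℓ)⟩

end Vale.Agent.Results.P235.LightFunctions
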