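import Vale.Agent.P235.H536.Spd2
import Vale.Agent.P235.H536.AllRounds
import Vale.Agent.P235.H105.Peel2
import Vale.Agent.P235.H536.FaceFinal
import Vale.Agent.P235.H206.ComposeLog

namespace Vale.Agent.Results.P235.SharpEdgeSums

open Vale.Agent.P235

/-- Bounds for `c₁(G)` (`DistortionLE G C` is `c₁(G) ≤ C`), `G` finite and connected, `A` absolute.
`Piece3 w t`: the graphs of treewidth at most `3` and the graphs from which `t` vertices can be
deleted such that the rest has pathwidth at most `w`, or such that the components of the rest are
exhausted by `w` rounds of removing shortest paths, for all lengths.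
1. Planar graphs: if `k` rounds, each of which deletes from every component all vertices on the
boundary of one face of a plane rotation system of this component, leave components with `c₁ ≤ C`
(for example no vertices at all, `C = 1`), then `c₁(G) ≤ 3328000 (C + k)`.
2. Suppose that for all lengths `k` rounds, each of which deletes from every component at most `s`
vertices, or a shortest path, or the vertices of a crossless list, leave components which arise by
any number of gluings along edges and deletions of edges from graphs of `Piece3 w t`. Then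
`c₁(G) ≤ A (w + log t + k log s)`.
3. The graphs which arise by any number of gluings along edges and deletions of edges from graphs of
`Piece3 w t` embed with distortion `A (w + log t)`, isometrically on any one prescribed edge.
4. Edge sums of graphs with at most `s` vertices: `A log s`.
5. The `2`-sum theorem: if the connected graphs of a class embed nonexpansively, isometrically on
any one prescribed edge and with distortion at most `D`, then so do, with `12000 D`, all connected
graphs obtained from the class by gluings along edges and deletions of edges.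
6. If the rounds of 2 leave components in a class with `c₁ ≤ C`, then `c₁(G) ≤ A (C + k log s)`.
7. Path decompositions with bags of any size, adhesion at most `w` and `c₁ ≤ C` for the components
of the bags: `A (C + √w)`.
8. If the torso of `X` has `c₁ ≤ C` and all components of `G - X`, with any number of neighbours,
have `c₁ ≤ K`, then `c₁(G) ≤ 30000 C (C log (C + 1) + K)`.
9. The operations of 6, 7, 8 and gluing at a vertex, iterated, starting from any class of graphs
with bounded `c₁`.
10. The vertices on the boundary of a face of a plane rotation system form a crossless list. -/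
theorem result :
    (∀ (k : ℕ) (C : ℝ), 1 ≤ C → ∀ (V : Type) [Finite V] (G : SimpleGraph V), G.Connected →
      PlanarPeel C k G → DistortionLE G (3328000 * (C + k))) ∧
    (∃ A : ℝ, ∀ (w t s k : ℕ) (V : Type) [Finite V] (G : SimpleGraph V), G.Connected →
      (∀ ℓ : Sym2 V → ℝ, (∀ e ∈ G.edgeSet, 0 < ℓ e) →
        Strip (fun _ G => EdgeSumOf (Piece3 w t) G) s k G ℓ) →
      DistortionLE G (A * (w + Real.log (t + 2) + k * Real.log (s + 2)))) ∧
    (∃ A : ℝ, ∀ (w t : ℕ) (V : Type) [Finite V] (G : SimpleGraph V), G.Connected →
      EdgeSumOf (Piece3 w t) G →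
      EdgeIso G (A * (w + Real.log (t + 2))) ∧ DistortionLE G (A * (w + Real.log (t + 2)))) ∧
    (∃ A : ℝ, ∀ (s : ℕ) (V : Type) [Finite V] (G : SimpleGraph V), G.Connected →
      EdgeSumOf (fun V _ => Finite V ∧ Nat.card V ≤ s) G →
      DistortionLE G (A * Real.log (s + 2))) ∧
    (∀ (P : ∀ (V : Type), SimpleGraph V → Prop) (D : ℝ), 1 ≤ D →
      (∀ (V : Type) [Finite V] (G : SimpleGraph V), G.Connected → P V G → EdgeIso G D) →
      ∀ (V : Type) [Finite V] (G : SimpleGraph V), G.Connected → EdgeSumOf P G →
        EdgeIso G (12000 * D) ∧ DistortionLE G (12000 * D)) ∧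
    (∀ (P : ∀ (V : Type), SimpleGraph V → Prop) (C : ℝ), 1 ≤ C →
      (∀ (V : Type) [Finite V] (G : SimpleGraph V), G.Connected → P V G → DistortionLE G C) →
      ∀ (s k : ℕ) (V : Type) [Finite V] (G : SimpleGraph V), G.Connected →
      (∀ ℓ : Sym2 V → ℝ, (∀ e ∈ G.edgeSet, 0 < ℓ e) → Strip P s k G ℓ) →
      DistortionLE G (3328000 * (C + k * Real.log (s + 2)))) ∧
    (∀ (w : ℕ) (C : ℝ), 1 ≤ C → ∀ (V : Type) [Finite V] (G : SimpleGraph V), G.Connected →
      ∀ (n : ℕ) (B : Fin n → Set V), PathDec G w B →
      (∀ i, ∀ u ∈ B i, DistortionLE (G.induce (compSet G (B i)ᶜ u)) C) →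
      DistortionLE G (3328000 * (√w + C))) ∧
    (∀ C K : ℝ, 1 ≤ C → 1 ≤ K → ∀ (V : Type) [Finite V] (G : SimpleGraph V), G.Connected →
      ∀ X : Set V, X.Nonempty → DistortionLE (torso G X) C →
      (∀ u ∉ X, DistortionLE (G.induce (compSet G X u)) K) →
      DistortionLE G (30000 * C * (C * Real.log (C + 1) + K))) ∧
    (∀ (C : ℝ) (w j : ℕ), ∃ K : ℝ, ∀ P : ∀ (V : Type), SimpleGraph V → Prop,
      (∀ (V : Type) [Finite V] (G : SimpleGraph V), G.Connected → P V G → DistortionLE G C) →
      ∀ (V : Type) [Finite V] (G : SimpleGraph V), G.Connected →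
        AllRounds P w j G → DistortionLE G K) ∧
    (∀ (V : Type) [Finite V] (G : SimpleGraph V), G.Connected →
      ∀ (σ : Equiv.Perm G.Dart), PlaneMap G σ → ∀ d : G.Dart,
      ∃ (n : ℕ) (x : Fin n → V), 0 < n ∧ Crossless G x ∧ Set.range x = onFace σ d) :=
  ⟨fun k _ hC V _ G hG h => planar_distortion k hC V G hG h,
    strip_edgeSum, edgeSum_piece3, edgeSum_card,
    fun P _ hD hP V _ G hG hE => edgeSum_edgeIso P hD hP V G hG hE,
    fun P _ hC hP s k V _ G hG h => strip_distortion P hC hP s k V G hG h,
    fun w _ hC V _ G hG n B hB h => pathSum_sqrt w hC V G hG n B hB h,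
    fun _ _ hC hK V _ G hG X hX ht hk => composition_log hC hK V G hG X hX ht hk,
    allRounds_bounded, fun V _ G hG σ hσ d => crossless_face V G hG σ hσ d⟩

end Vale.Agent.Results.P235.SharpEdgeSums
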