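import Vale.Agent.P235.H536.Faces2
import Vale.Agent.P235.H206.AllSurf
import Vale.Agent.P235.H206.Stage2

namespace Vale.Agent.Results.P235.SurfaceRounds

open Vale.Agent.P235

/-- Bounds for `c₁(G)` (`DistortionLE G C` is `c₁(G) ≤ C`), `G` finite and connected.
1. Let `σ` be a rotation system of `G` on an orientable surface of Euler genus at most `g`, and
suppose that `c₁ ≤ C` for all connected induced planar subgraphs all of whose vertices have face
distance more than `k` from each of `m` fixed faces. Then `c₁(G) ≤ 10⁷ (C + k + log (g + m + 2))`.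
2. The case `m = k = 0`: if all connected induced planar subgraphs of `G` have `c₁ ≤ C`, then
`c₁(G) ≤ 10⁷ (C + log (g + 2))`.
3. If all vertices have face distance at most `k` from one of `m` faces, then
`c₁(G) ≤ 10⁷ (1 + k + log (g + m + 2))`.
4. If for all lengths `k` rounds, each of which deletes from every component a union of at most `s`
lanes (for example `s` vertices, or `s` shortest paths with a common end) or the vertices on a face
of a rotation system of Euler genus at most `g`, leave components in a class with `c₁ ≤ C`, then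
`c₁(G) ≤ 5000000 (C + k (g + log (s + 2)))`.
5. The operations of 2, 4, gluing at a vertex, composition along torsos and path decompositions of
bounded adhesion, iterated, starting from any class of graphs with bounded `c₁`.
6. Graphs with a tree decomposition of width at most `w` in which on every path from the root all
but `j` edges have adhesion at most `2` or join bags of at most `4` vertices. -/
theorem result :
    (∀ (g k : ℕ) (C : ℝ), 1 ≤ C → ∀ (V : Type) [Finite V] (G : SimpleGraph V), G.Connected →
      ∀ (σ : Equiv.Perm G.Dart), SurfMap g G σ → ∀ D : Finset G.Dart,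
      (∀ S : Set V, (∀ v ∈ S, ∀ d ∈ D, v ∉ hop σ d k) → (G.induce S).Connected →
        (∃ τ, SurfMap 0 (G.induce S) τ) → DistortionLE (G.induce S) C) →
      DistortionLE G (10000000 * (C + k + Real.log (g + D.card + 2)))) ∧
    (∀ (g : ℕ) (C : ℝ), 1 ≤ C → ∀ (V : Type) [Finite V] (G : SimpleGraph V), G.Connected →
      (∃ σ, SurfMap g G σ) →
      (∀ S : Set V, (G.induce S).Connected → (∃ τ, SurfMap 0 (G.induce S) τ) →
        DistortionLE (G.induce S) C) →
      DistortionLE G (10000000 * (C + Real.log (g + 2)))) ∧
    (∀ (g k : ℕ) (V : Type) [Finite V] (G : SimpleGraph V), G.Connected →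
      ∀ (σ : Equiv.Perm G.Dart), SurfMap g G σ → ∀ D : Finset G.Dart,
      (∀ v, ∃ d ∈ D, v ∈ hop σ d k) →
      DistortionLE G (10000000 * (1 + k + Real.log (g + D.card + 2)))) ∧
    (∀ (P : ∀ (V : Type), SimpleGraph V → Prop) (C : ℝ), 1 ≤ C →
      (∀ (V : Type) [Finite V] (G : SimpleGraph V), G.Connected → P V G → DistortionLE G C) →
      ∀ (s g k : ℕ) (V : Type) [Finite V] (G : SimpleGraph V), G.Connected →
      (∀ ℓ : Sym2 V → ℝ, (∀ e ∈ G.edgeSet, 0 < ℓ e) → SurfStrip P s g k G ℓ) →
      DistortionLE G (5000000 * (C + k * (g + Real.log (s + 2))))) ∧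
    (∀ (C : ℝ) (w j : ℕ), ∃ K : ℝ, ∀ P : ∀ (V : Type), SimpleGraph V → Prop,
      (∀ (V : Type) [Finite V] (G : SimpleGraph V), G.Connected → P V G → DistortionLE G C) →
      ∀ (V : Type) [Finite V] (G : SimpleGraph V), G.Connected →
        AllSurf P w j G → DistortionLE G K) ∧
    (∀ w j : ℕ, ∃ K : ℝ, ∀ (V : Type) [Finite V] (G : SimpleGraph V), G.Connected →
      DepthTD w j G → DistortionLE G K) :=
  ⟨fun g k _ hC V _ G hG σ hσ D h => H536.comb_distortion_faces g k hC V G hG σ hσ D h,
    fun g _ hC V _ G hG hσ h => genus_distortion g hC V G hG hσ h,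
    fun g k V _ G hG σ hσ D h => H536.comb_distortion_faces g k le_rfl V G hG σ hσ D
      fun S hS hc _ => by
        obtain ⟨d, hd, h1⟩ := h hc.nonempty.some.1
        exact absurd h1 (hS _ hc.nonempty.some.2 d hd),
    fun P _ hC hP s g k V _ G hG h => surfStrip_distortion P hC hP s g k V G hG h,
    allSurf_bounded,
    depthTD_bounded⟩

end Vale.Agent.Results.P235.SurfaceRounds
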